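import Vale.Agent.P150S.Cvx

/-! A polynomial second moment bound gives a polynomial lower bound on the partition function.

`shift`: copy the proof of `La_shift`. With `φ = 1` it gives `∫ exp (Hf e g x) = exp (cv e x x / 2)` (integrable since the
integral is not zero); with `φ g = exp (Hf e g y)` it gives `∫ exp (H x) exp (H y) = exp (v + cv e x y)`.
`lowZ` with `D = 72`. Let `F = log Z`, `M = card S * exp (v / 2) = ∫ Z`, `∫ Z ^ 2 ≤ K M ^ 2`,
`ψ r = Pinv (∫ Ph (r - F))`, concave by `Anti_conc` (`logZ_convex`, `logZ_lip` with `L = √v`), `Ph (ψ r) = ∫ Ph (r - F)`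
(`Ph_Pinv_integral`), `Ph (-ψ r) = ∫ Ph (F - r)` (`Ph_neg`). Put `s = √(2 log (8 K)) ≥ 1`, `r₁ = log (M / 2)`,
`r₂ = log M + 17 log (8 K)`, `r₀ = 2 r₁ - r₂`.
(a) pointwise `Z ≤ M / 2 + Z ^ 2 / (4 K M) + 2 K M Ph (F - r₁)` (if `Z ≥ M / 2` then `Ph ≥ 1 / 2`, AM-GM), so
`1 / (8 K) ≤ Ph (-ψ r₁)`; `Anti_cher` gives `Ph (-w) ≤ exp (-w ^ 2 / 2)` for `w ≥ 0`, hence `ψ r₁ ≤ s`.
(b) `Anti_cher` with `c = 1`: `Ph (-ψ r₂) ≤ exp (1 / 2) (8 K) ^ (-17)`, while
`Ph (-3 s) ≥ ph (3 s + 1) ≥ (8 K) ^ (-16) / 3` (`LowZ_tail`, mean value theorem for `Ph`, `hasDerivAt_Ph`); so `3 s ≤ ψ r₂`.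
(c) concavity at the midpoint `r₁`: `ψ r₀ ≤ -s`; `Anti_up` gives `P (F ≤ r₀) ≤ 2 Ph (-s) ≤ 2 / (8 K)`;
`M / K ^ 72 ≤ exp r₀` because `8 K ≤ K ^ 4`. -/

namespace Vale.Agent.P150C

open Finset Real MeasureTheory ProbabilityTheory Vale.Agent.P150 Vale.Agent.P150S Vale.Agent.P226

theorem shift {I S : Type} [Fintype I] [Fintype S] (e : I → S → ℝ) (x : S) (φ : (I → ℝ) → ℝ) :
    ∫ g, exp (Hf e g x) * φ g ∂gm I =
      exp (cv e x x / 2) * ∫ g, φ (g + fun i => e i x) ∂gm I := by
  rw [LogC_int, LogC_int, ← integral_const_mul, ← integral_add_right_eq_self _ fun i => e i x]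
  refine integral_congr_ae (ae_of_all _ fun g => ?_)
  have e1 : Hf e (g + fun i => e i x) x = Hf e g x + cv e x x := by
    simp only [Hf, cv, Pi.add_apply, add_mul, sum_add_distrib]
  have e3 : ∑ i, (g + fun i => e i x) i ^ 2 = ∑ i, g i ^ 2 + 2 * Hf e g x + cv e x x := by
    simp only [Hf, cv, Pi.add_apply, mul_sum, ← sum_add_distrib]
    exact sum_congr rfl fun i _ => by ring
  simp only [e1, e3]
  have e4 : exp (-(∑ i, g i ^ 2 + 2 * Hf e g x + cv e x x) / 2) * exp (Hf e g x + cv e x x) =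
      exp (cv e x x / 2) * exp (-(∑ i, g i ^ 2) / 2) := by
    rw [← exp_add, ← exp_add]
    congr 1
    ring
  linear_combination (√(2 * π))⁻¹ ^ Fintype.card I * φ (g + fun i => e i x) * e4

theorem int_Hf {I S : Type} [Fintype I] [Fintype S] (e : I → S → ℝ) (x : S) :
    Integrable (fun g => exp (Hf e g x)) (gm I) ∧ ∫ g, exp (Hf e g x) ∂gm I = exp (cv e x x / 2) := by
  have h := shift e x fun _ => 1
  simp only [mul_one, integral_const, probReal_univ, smul_eq_mul] at h
  exact ⟨Integrable.of_integral_ne_zero (by rw [h]; exact (exp_pos _).ne'), h⟩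

theorem LowZ_two {I S : Type} [Fintype I] [Fintype S] (e : I → S → ℝ) (x y : S) :
    Integrable (fun g => exp (Hf e g x) * exp (Hf e g y)) (gm I) ∧
      ∫ g, exp (Hf e g x) * exp (Hf e g y) ∂gm I =
        exp (cv e x x / 2) * exp (cv e y y / 2) * exp (cv e x y) := by
  have h := shift e x fun g => exp (Hf e g y)
  have e1 : ∀ g : I → ℝ, exp (Hf e (g + fun i => e i x) y) = exp (Hf e g y) * exp (cv e x y) := by
    intro g
    rw [← exp_add]
    simp only [Hf, cv, Pi.add_apply, add_mul, sum_add_distrib]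
  simp only [e1] at h
  rw [integral_mul_const, (int_Hf e y).2, ← mul_assoc] at h
  exact ⟨Integrable.of_integral_ne_zero (by rw [h]; positivity), h⟩

theorem LowZ_tail {w : ℝ} (hw : 0 ≤ w) : exp (-(w + 1) ^ 2 / 2) / 3 ≤ Ph (-w) := by
  obtain ⟨c, hc, h⟩ := exists_hasDerivAt_eq_slope Ph ph (show -w - 1 < -w by linarith)
    continuous_Ph.continuousOn fun x _ => hasDerivAt_Ph x
  have h1 : ph c ≤ Ph (-w) := by
    rw [h, show -w - (-w - 1) = 1 by ring, div_one]
    linarith [Ph_nonneg (-w - 1)]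
  refine le_trans ?_ h1
  have h2 : √(2 * π) ≤ 3 := by
    rw [sqrt_le_left (by norm_num)]
    linarith [pi_lt_four]
  have h3 : exp (-(w + 1) ^ 2 / 2) ≤ exp (-c ^ 2 / 2) := exp_le_exp.2 (by nlinarith [hc.1, hc.2])
  rw [ph, ← div_eq_inv_mul]
  exact div_le_div₀ (exp_pos _).le h3 sqrt_two_pi_pos h2

theorem LowZ_gauss {w : ℝ} (hw : 0 ≤ w) : Ph (-w) ≤ exp (-w ^ 2 / 2) := by
  refine (Anti_cher (-w) hw).trans (le_of_eq ?_)
  congr 1
  ring

theorem LowZ_pt {Z M K P : ℝ} (hM : 0 < M) (hK : 0 < K) (hP : 0 ≤ P) (h : M / 2 ≤ Z → 1 / 2 ≤ P) :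
    Z ≤ M / 2 + 1 / (4 * K * M) * Z ^ 2 + 2 * K * M * P := by
  have h1 : 0 ≤ 1 / (4 * K * M) * Z ^ 2 := by positivity
  have h2 : 0 ≤ 2 * K * M * P := by positivity
  rcases le_total Z (M / 2) with h3 | h3
  · linarith
  · have h4 := mul_le_mul_of_nonneg_left (h h3) (show 0 ≤ 2 * K * M by positivity)
    have h5 : Z ≤ 1 / (4 * K * M) * Z ^ 2 + K * M := by
      have e : 1 / (4 * K * M) * Z ^ 2 + K * M - Z = (Z - 2 * K * M) ^ 2 / (4 * K * M) := by
        field_simp
        ring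
      have : 0 ≤ (Z - 2 * K * M) ^ 2 / (4 * K * M) := by positivity
      linarith
    linarith

theorem lowZ : ∃ D : ℕ, ∀ (I S : Type) [Fintype I] [Fintype S] [Nonempty S] (e : I → S → ℝ)
    (v K : ℝ), 2 ≤ K → (∀ x, cv e x x = v) → (∀ x, ∑ y, exp (cv e x y) ≤ K * Fintype.card S) →
    (gm I).real {g | Zw e 1 g ≤ Fintype.card S * exp (v / 2) / K ^ D} ≤ 1 / K := by
  refine ⟨72, fun I S _ _ _ e v K hK hv h2 => ?_⟩
  have hc : (0 : ℝ) < Fintype.card S := by exact_mod_cast Fintype.card_pos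
  set M := Fintype.card S * exp (v / 2) with hM
  have M0 : 0 < M := by positivity
  have K0 : 0 < K := by linarith
  have hZ : ∀ g, Zw e 1 g = ∑ x, exp (Hf e g x) := fun g => by simp [Zw]
  have i1 : Integrable (Zw e 1) (gm I) := by
    rw [show Zw e 1 = _ from funext hZ]
    exact integrable_finsetSum _ fun x _ => (int_Hf e x).1
  have m1 : ∫ g, Zw e 1 g ∂gm I = M := by
    simp only [hZ]
    rw [integral_finsetSum _ fun x _ => (int_Hf e x).1]
    simp only [(int_Hf e _).2, hv, sum_const, card_univ, nsmul_eq_mul, hM]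
  have hZ2 : ∀ g, Zw e 1 g ^ 2 = ∑ x, ∑ y, exp (Hf e g x) * exp (Hf e g y) := fun g => by
    rw [hZ, sq, sum_mul_sum]
  have i2 : Integrable (fun g => Zw e 1 g ^ 2) (gm I) := by
    simp only [hZ2]
    exact integrable_finsetSum _ fun x _ => integrable_finsetSum _ fun y _ => (LowZ_two e x y).1
  have m2 : ∫ g, Zw e 1 g ^ 2 ∂gm I ≤ K * M ^ 2 := by
    simp only [hZ2]
    rw [integral_finsetSum _ fun x _ => integrable_finsetSum _ fun y _ => (LowZ_two e x y).1]
    refine (sum_le_sum (g := fun _ => exp (v / 2) * exp (v / 2) * (K * Fintype.card S))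
      fun x _ => ?_).trans (le_of_eq ?_)
    · rw [integral_finsetSum _ fun y _ => (LowZ_two e x y).1]
      simp only [(LowZ_two e _ _).2, hv, ← mul_sum]
      exact mul_le_mul_of_nonneg_left (h2 x) (by positivity)
    · rw [sum_const, card_univ, nsmul_eq_mul, hM]
      ring
  have v0 : 0 ≤ v := by
    rw [← hv (Classical.arbitrary S)]
    exact sum_nonneg fun i _ => mul_self_nonneg _
  have hm : Measurable fun g => log (Zw e 1 g) := (cont_Zw e 1).measurable.log
  have hconc := Anti_conc (logZ_convex e) (sqrt_nonneg v)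
    (logZ_lip e (sqrt_nonneg v) fun x => by rw [sq_sqrt v0, hv])
  set ψ : ℝ → ℝ := fun r => Pinv (∫ g, Ph (r - log (Zw e 1 g)) ∂gm I) with hψ
  have p1 : ∀ r, ∫ g, Ph (r - log (Zw e 1 g)) ∂gm I = Ph (ψ r) := fun r =>
    Ph_Pinv_integral _ (measurable_const.sub hm)
  have p2 : ∀ r, ∫ g, Ph (log (Zw e 1 g) - r) ∂gm I = Ph (-ψ r) := fun r => by
    rw [Ph_neg, ← p1]
    have : ∀ g, Ph (log (Zw e 1 g) - r) = 1 - Ph (r - log (Zw e 1 g)) := fun g => by
      rw [← Ph_neg, neg_sub]
    simp only [this]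
    rw [integral_sub (integrable_const _) (integrable_Ph_comp _ (hm.const_sub r))]
    simp
  set l := log (8 * K) with hl
  have el : exp l = 8 * K := exp_log (by positivity)
  have l1 : 1 ≤ l := by
    rw [hl, le_log_iff_exp_le (by positivity)]
    linarith [exp_one_lt_d9]
  set s := √(2 * l) with hs
  have s2 : s ^ 2 = 2 * l := sq_sqrt (by linarith)
  have s0 : 0 ≤ s := sqrt_nonneg _
  have s1 : 1 ≤ s := by nlinarith
  have es : exp (-s ^ 2 / 2) = 1 / (8 * K) := by
    rw [s2, show -(2 * l) / 2 = -l by ring, exp_neg, el, one_div]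
  have ha : ψ (log (M / 2)) ≤ s := by
    have iP := integrable_Ph_comp (gm I) (hm.sub_const (log (M / 2)))
    have a1 := integral_mono i1 (((integrable_const (M / 2)).add (i2.const_mul (1 / (4 * K * M)))).add
      (iP.const_mul (2 * K * M))) fun g => LowZ_pt (Z := Zw e 1 g) M0 K0 (Ph_nonneg _) fun h => by
        rw [← Ph_zero]
        exact strictMono_Ph.monotone (sub_nonneg.2 (log_le_log (by positivity) h))
    simp only [Pi.add_apply] at a1
    have iQ : Integrable (fun g => M / 2 + 1 / (4 * K * M) * Zw e 1 g ^ 2) (gm I) :=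
      (integrable_const (M / 2)).add (i2.const_mul _)
    rw [integral_add iQ (iP.const_mul _),
      integral_add (integrable_const _) (i2.const_mul _), integral_const_mul, integral_const_mul,
      p2, m1] at a1
    simp only [integral_const, probReal_univ, smul_eq_mul, one_mul] at a1
    have a2 : 1 / (4 * K * M) * ∫ g, Zw e 1 g ^ 2 ∂gm I ≤ M / 4 := by
      refine (mul_le_mul_of_nonneg_left m2 (by positivity)).trans (le_of_eq ?_)
      field_simp
    have a3 : 1 / (8 * K) ≤ Ph (-ψ (log (M / 2))) := by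
      rw [div_le_iff₀ (by positivity)]
      refine le_of_mul_le_mul_left ?_ M0
      nlinarith
    by_contra hn
    push Not at hn
    have a4 := LowZ_gauss (s0.trans hn.le)
    have a5 : exp (-ψ (log (M / 2)) ^ 2 / 2) < exp (-s ^ 2 / 2) := exp_lt_exp.2 (by nlinarith)
    linarith
  have hb : 3 * s ≤ ψ (log M + 17 * l) := by
    have a1 : Ph (-ψ (log M + 17 * l)) ≤ exp (1 / 2 - 17 * l) := by
      rw [← p2]
      refine (integral_mono (integrable_Ph_comp _ (hm.sub_const _))
        (i1.const_mul (exp (1 / 2 - 17 * l) / M)) fun g => ?_).trans (le_of_eq ?_)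
      · refine (Anti_cher _ zero_le_one).trans (le_of_eq ?_)
        rw [show 1 * (log (Zw e 1 g) - (log M + 17 * l)) + 1 ^ 2 / 2 =
          (1 / 2 - 17 * l) - log M + log (Zw e 1 g) by ring, exp_add, exp_sub _ (log M), exp_log M0,
          exp_log (Z_pos e g)]
      · rw [integral_const_mul, m1, div_mul_cancel₀ _ M0.ne']
    by_contra hn
    push Not at hn
    have a2 := strictMono_Ph (neg_lt_neg hn)
    have a3 := LowZ_tail (w := 3 * s) (by linarith)
    have a4 : exp (-(16 * l)) ≤ exp (-(3 * s + 1) ^ 2 / 2) := exp_le_exp.2 (by nlinarith)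
    have a5 : exp (1 / 2 - 17 * l) * (8 * K) = exp (1 / 2) * exp (-(16 * l)) := by
      rw [← el, ← exp_add, ← exp_add]
      congr 1
      ring
    have a6 : exp (1 / 2) ≤ 3 := (exp_le_exp.2 (by norm_num)).trans (exp_one_lt_d9.le.trans (by norm_num))
    have a7 := exp_pos (1 / 2 - 17 * l)
    have a8 := exp_pos (-(16 * l))
    nlinarith
  have hc' : ψ (2 * log (M / 2) - (log M + 17 * l)) ≤ -s := by
    have a1 := hconc.2 (Set.mem_univ (2 * log (M / 2) - (log M + 17 * l)))
      (Set.mem_univ (log M + 17 * l)) (show (0 : ℝ) ≤ 1 / 2 by norm_num)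
      (show (0 : ℝ) ≤ 1 / 2 by norm_num) (by norm_num)
    simp only [smul_eq_mul] at a1
    rw [show 1 / 2 * (2 * log (M / 2) - (log M + 17 * l)) + 1 / 2 * (log M + 17 * l) = log (M / 2) by
      ring] at a1
    linarith
  have hd := Anti_up (I := I) hm (2 * log (M / 2) - (log M + 17 * l))
  rw [p1] at hd
  have he := (strictMono_Ph.monotone hc').trans (LowZ_gauss s0)
  rw [es] at he
  refine (measureReal_mono fun g hg => ?_).trans (hd.trans ?_)
  · refine (log_le_log (Z_pos e g) hg).trans ?_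
    have a1 : l ≤ 4 * log K := by
      rw [hl, show 4 * log K = log (K ^ 4) by rw [log_pow]; norm_num]
      refine log_le_log (by positivity) ?_
      have : (2 : ℝ) ^ 3 ≤ K ^ 3 := pow_le_pow_left₀ (by norm_num) hK 3
      nlinarith
    have a2 : 2 * log 2 ≤ l := by
      rw [hl, show 2 * log 2 = log (2 ^ 2) by rw [log_pow]; norm_num]
      exact log_le_log (by norm_num) (by linarith)
    rw [log_div M0.ne' (by positivity), log_div M0.ne' two_ne_zero, log_pow]
    push_cast
    linarith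
  · have : 2 * (1 / (8 * K)) ≤ 1 / K := by
      rw [mul_one_div, div_le_div_iff₀ (by positivity) K0]
      linarith
    linarith

end Vale.Agent.P150C
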