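import Vale.Agent.P150C.Tail
import Vale.Agent.P150C.LowZ
import Vale.Agent.P150C.Eig
import Vale.Agent.P150.Final

/-! Critical slowing down. In the planted model the coupling matrix is a critical rank one perturbation of a
Gaussian orthogonal matrix; the coordinates of the resolvent applied to the spins are slow test functions. -/

namespace Vale.Agent.P150C

open Finset Real MeasureTheory ProbabilityTheory Matrix Filter Topology Vale.Agent.P150 Vale.Agent.P150S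

noncomputable section

variable {n : ℕ}

/-- the field indexed by all ordered pairs -/
def eM (n : ℕ) (p : Fin n × Fin n) (x : Conf n) : ℝ := (√(2 * n))⁻¹ * (sp (x p.1) * sp (x p.2))

/-- the spin vector -/
def sv (x : Conf n) : Fin n → ℝ := fun i => sp (x i)

/-- symmetrisation -/
def symA (A : Fin n × Fin n → ℝ) (p : Pair n) : ℝ := (A (p.1.1, p.1.2) + A (p.1.2, p.1.1)) / √2

theorem Crit_sq (b : Bool) : sp b * sp b = 1 := by cases b <;> simp [sp]

theorem Crit_cv (x y : Conf n) : cv (eM n) x y = (∑ i, sp (x i) * sp (y i)) ^ 2 / (2 * n) := by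
  have h : (√(2 * n : ℝ))⁻¹ * (√(2 * n))⁻¹ = (2 * n : ℝ)⁻¹ := by
    rw [← mul_inv, mul_self_sqrt (by positivity)]
  rw [cv, Fintype.sum_prod_type, sq, sum_mul_sum, div_eq_inv_mul, ← h, mul_sum]
  refine sum_congr rfl fun i _ => ?_
  rw [mul_sum]
  exact sum_congr rfl fun j _ => by simp only [eM]; ring

theorem Crit_cv1 (hn : 0 < n) (x : Conf n) : cv (eM n) x x = n / 2 := by
  have : (n : ℝ) ≠ 0 := by positivity
  simp only [Crit_cv, Crit_sq, sum_const, card_univ, Fintype.card_fin, nsmul_eq_mul, mul_one]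
  field_simp

theorem Crit_H (A : Fin n × Fin n → ℝ) (x : Conf n) :
    Hf (eM n) A x = ham 1 (symA A) x + ∑ i, A (i, i) * (√(2 * n))⁻¹ := by
  have b1 := sum_pairs (fun i j => A (i, j) * eM n (i, j) x -
    if i = j then A (i, i) * (√(2 * n))⁻¹ else 0) fun i => by
      rw [if_pos rfl, eM, Crit_sq]
      ring
  simp only [sum_sub_distrib, sum_ite_eq, mem_univ, if_true] at b1
  rw [Hf, Fintype.sum_prod_type, ← sub_eq_iff_eq_add, b1, ham, mul_sum]
  refine sum_congr rfl fun p _ => ?_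
  rw [if_neg p.2.ne, if_neg p.2.ne']
  simp only [eM, symA]
  rw [sqrt_mul zero_le_two]
  ring

theorem Crit_gibbs (A : Fin n × Fin n → ℝ) (x : Conf n) :
    gibbs 1 (symA A) x = exp (Hf (eM n) A x) / Zw (eM n) 1 A := by
  simp only [gibbs, Zw, Crit_H, Pi.one_apply, one_mul, exp_add, ← sum_mul]
  rw [mul_div_mul_right _ _ (exp_pos _).ne']

theorem Crit_second (hn : 0 < n) (x : Conf n) :
    ∑ y, exp (cv (eM n) x y) ≤ (2 * n + 1) * Fintype.card (Conf n) := by
  have n0 : (0 : ℝ) < n := by exact_mod_cast hn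
  have h1 : ∀ y : Conf n, exp (cv (eM n) x y) ≤ ∑ s ∈ Icc (-(n : ℤ)) n,
      exp (-((s : ℝ) ^ 2 / (2 * n))) * ∏ i, exp (s / n * (sp (x i) * sp (y i))) := by
    intro y
    have hk : ((∑ i, (if x i = y i then 1 else -1 : ℤ) : ℤ) : ℝ) = ∑ i, sp (x i) * sp (y i) := by
      push_cast
      refine sum_congr rfl fun i _ => ?_
      cases x i <;> cases y i <;> simp [sp]
    have hb : |∑ i, (if x i = y i then 1 else -1 : ℤ)| ≤ n := by
      refine (abs_sum_le_sum_abs _ _).trans ((sum_le_sum (g := fun _ => 1) fun i _ => ?_).trans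
        (by simp))
      split_ifs <;> simp
    refine le_trans (le_of_eq ?_) (single_le_sum (f := fun s : ℤ => exp (-((s : ℝ) ^ 2 / (2 * n))) *
      ∏ i, exp (s / n * (sp (x i) * sp (y i)))) (fun s _ => by positivity) (mem_Icc.2 (abs_le.1 hb)))
    rw [← exp_sum, ← mul_sum, hk, ← exp_add, Crit_cv]
    congr 1
    field_simp
    ring
  refine (sum_le_sum fun y _ => h1 y).trans ?_
  rw [sum_comm]
  refine (sum_le_sum (g := fun _ => (Fintype.card (Conf n) : ℝ)) fun s _ => ?_).trans (le_of_eq ?_)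
  · have e := prod_univ_sum (fun _ : Fin n => (univ : Finset Bool))
      fun i b => exp (s / n * (sp (x i) * sp b))
    rw [Fintype.piFinset_univ] at e
    rw [← mul_sum, ← e]
    have h2 : ∀ i, ∑ b, exp (s / n * (sp (x i) * sp b)) ≤ 2 * exp (((s : ℝ) / n) ^ 2 / 2) := fun i => by
      have := cosh_le_exp_half_sq ((s : ℝ) / n)
      rw [cosh_eq] at this
      cases x i <;> simp [sp] <;> linarith
    refine (mul_le_mul_of_nonneg_left (prod_le_prod (fun i _ => sum_nonneg fun b _ => (exp_pos _).le)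
      fun i _ => h2 i) (exp_pos _).le).trans (le_of_eq ?_)
    rw [prod_const, card_univ, Fintype.card_fin, mul_pow, ← exp_nat_mul, mul_left_comm, ← exp_add,
      show -((s : ℝ) ^ 2 / (2 * n)) + n * (((s : ℝ) / n) ^ 2 / 2) = 0 by field_simp; ring]
    simp
  · rw [sum_const, nsmul_eq_mul, Int.card_Icc]
    congr 1
    have : ((n : ℤ) + 1 - -(n : ℤ)).toNat = 2 * n + 1 := by omega
    rw [this]
    push_cast
    ring

/-- Poincare inequality for linear functions -/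
def Lin (c : ℝ) (g : Pair n → ℝ) : Prop :=
  ∀ a : Fin n → ℝ, c * ∑ x, gibbs 1 g x * (∑ i, a i * sp (x i)) ^ 2 ≤ ∑ i, a i ^ 2

theorem Crit_cx {c : ℝ} {g : Pair n → ℝ} (h : Lin c g) (G : Matrix (Fin n) (Fin n) ℂ) :
    c * ∑ x, gibbs 1 g x * ∑ k, ‖(G *ᵥ cx (sv x)) k‖ ^ 2 ≤
      ∑ i, ∑ k, ‖(G *ᵥ cx (Pi.single i 1)) k‖ ^ 2 := by
  have e1 : ∀ x k, ‖(G *ᵥ cx (sv x)) k‖ ^ 2 =
      (∑ i, (G k i).re * sp (x i)) ^ 2 + (∑ i, (G k i).im * sp (x i)) ^ 2 := fun x k => by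
    rw [Complex.sq_norm, Complex.normSq_apply]
    simp [mulVec, dotProduct, cx, sv, sq]
  have e2 : ∀ i k, ‖(G *ᵥ cx (Pi.single i 1)) k‖ ^ 2 = (G k i).re ^ 2 + (G k i).im ^ 2 := fun i k => by
    have : cx (Pi.single i (1 : ℝ) : Fin n → ℝ) = Pi.single i 1 := by
      funext j
      by_cases hj : j = i
      · subst hj; simp [cx]
      · simp [cx, hj]
    rw [this, mulVec_single_one, Complex.sq_norm, Complex.normSq_apply]
    simp [sq]
  simp only [e1, e2, mul_sum, mul_add]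
  rw [sum_comm, sum_comm (f := fun i k => (G k i).re ^ 2 + (G k i).im ^ 2)]
  refine sum_le_sum fun k _ => ?_
  have a1 := h fun i => (G k i).re
  have a2 := h fun i => (G k i).im
  rw [mul_sum] at a1 a2
  rw [sum_add_distrib, sum_add_distrib]
  exact add_le_add a1 a2

/-- the configurations with a small resolvent form -/
def Bad (α : ℝ) (x : Conf n) : Set (Fin n × Fin n → ℝ) :=
  {A | -(res n (zz α) A (sv x)).im < n / (8 * α)}

theorem Crit_det (hn : 0 < n) {α : ℝ} (h0 : 0 < α) (h1 : α ≤ 1 / 2) {A : Fin n × Fin n → ℝ}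
    (h2 : ∀ i, ‖res n (zz α) A (Pi.single i 1) - mm α‖ ≤ α / 2)
    (h3 : ∑ x, (Bad α x).indicator (fun A => exp (Hf (eM n) A x)) A ≤ Zw (eM n) 1 A / 2) :
    ¬ Lin (25 * α ^ 2) (symA A) := by
  intro h
  have n0 : (0 : ℝ) < n := by exact_mod_cast hn
  have hz := zz_im h0 h1
  have z0 := Z_pos (eM n) A
  have a1 := mul_le_mul_of_nonneg_left (Crit_cx h (Mz n (zz α) A)⁻¹) hz.le
  have a2 : (zz α).im * ∑ i, ∑ k, ‖((Mz n (zz α) A)⁻¹ *ᵥ cx (Pi.single i 1)) k‖ ^ 2 ≤
      n * (3 * α / 2) := by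
    rw [mul_sum]
    refine (sum_le_sum fun i _ => (ward hz A _).trans_le (close_im h0 (h2 i)).1).trans_eq ?_
    rw [sum_const, card_univ, Fintype.card_fin, nsmul_eq_mul]
  have a3 : n / (8 * α) * (1 / 2) ≤ (zz α).im *
      ∑ x, gibbs 1 (symA A) x * ∑ k, ‖((Mz n (zz α) A)⁻¹ *ᵥ cx (sv x)) k‖ ^ 2 := by
    have b1 : ∀ x, n / (8 * α) * ((exp (Hf (eM n) A x) -
        (Bad α x).indicator (fun A => exp (Hf (eM n) A x)) A) / Zw (eM n) 1 A) ≤ (zz α).im *
        (gibbs 1 (symA A) x * ∑ k, ‖((Mz n (zz α) A)⁻¹ *ᵥ cx (sv x)) k‖ ^ 2) := fun x => by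
      rw [mul_left_comm, ward hz, Crit_gibbs]
      by_cases hx : A ∈ Bad α x
      · rw [Set.indicator_of_mem hx, sub_self, zero_div, mul_zero]
        exact mul_nonneg (by positivity) (neg_nonneg.2 (res_im hz A _))
      · rw [Set.indicator_of_notMem hx, sub_zero, mul_comm]
        exact mul_le_mul_of_nonneg_left (not_lt.1 hx) (by positivity)
    rw [mul_sum]
    refine le_trans ?_ (sum_le_sum fun x _ => b1 x)
    rw [← mul_sum, ← sum_div, sum_sub_distrib]
    refine mul_le_mul_of_nonneg_left ?_ (by positivity)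
    have e : ∑ x, exp (Hf (eM n) A x) = Zw (eM n) 1 A := by simp [Zw]
    rw [le_div_iff₀ z0, e]
    linarith
  rw [mul_left_comm] at a1
  have a4 := (mul_le_mul_of_nonneg_left a3 (by positivity : 0 ≤ 25 * α ^ 2)).trans (a1.trans a2)
  have e : 25 * α ^ 2 * (n / (8 * α) * (1 / 2)) = 25 / 16 * (n * α) := by field_simp; ring
  rw [e] at a4
  nlinarith [mul_pos n0 h0]

theorem Crit_meas (α : ℝ) (u : Fin n → ℝ) : Measurable fun A => res n (zz α) A u :=
  (res_meas n (zz α)).comp (measurable_const.prodMk measurable_id)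

theorem Crit_plant (hn : 0 < n) {α p : ℝ} (h0 : 0 < α) (h1 : α ≤ 1 / 2)
    (hp : ∀ u : Fin n → ℝ, u ⬝ᵥ u = 1 →
      (gm (Fin n × Fin n)).real {A | α / 2 < ‖res n (zz α) A u - mm α‖} ≤ p) (x : Conf n) :
    ∫ A, (Bad α x).indicator (fun A => exp (Hf (eM n) A x)) A ∂gm (Fin n × Fin n) ≤
      exp (n / 2 / 2) * p := by
  have n0 : (0 : ℝ) < n := by exact_mod_cast hn
  have hz := zz_im h0 h1
  have e1 : ∀ A, (Bad α x).indicator (fun A => exp (Hf (eM n) A x)) A =
      exp (Hf (eM n) A x) * (Bad α x).indicator 1 A := fun A => by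
    by_cases hx : A ∈ Bad α x <;> simp [hx]
  simp only [e1]
  rw [shift, Crit_cv1 hn]
  refine mul_le_mul_of_nonneg_left ?_ (exp_pos _).le
  have r2 : (√(n : ℝ))⁻¹ ^ 2 = (n : ℝ)⁻¹ := by rw [inv_pow, sq_sqrt n0.le]
  have hu : ((√(n : ℝ))⁻¹ • sv x) ⬝ᵥ ((√(n : ℝ))⁻¹ • sv x) = 1 := by
    rw [smul_dotProduct, dotProduct_smul, smul_eq_mul, smul_eq_mul, ← mul_assoc, ← sq, r2]
    simp only [dotProduct, sv, Crit_sq, sum_const, card_univ, Fintype.card_fin, nsmul_eq_mul, mul_one]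
    exact inv_mul_cancel₀ n0.ne'
  have hs : MeasurableSet {A | α / 2 < ‖res n (zz α) A ((√(n : ℝ))⁻¹ • sv x) - mm α‖} :=
    measurableSet_lt measurable_const ((Crit_meas α _).sub_const _).norm
  refine le_trans ?_ (hp _ hu)
  rw [← integral_indicator_one hs]
  refine integral_mono_of_nonneg (ae_of_all _ fun A => Set.indicator_nonneg (fun _ _ => zero_le_one) _)
    ((integrable_const 1).indicator hs) (ae_of_all _ fun A => ?_)
  refine Set.indicator_le_indicator_of_subset (s := (fun A => A + fun p => eM n p x) ⁻¹' Bad α x)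
    (f := 1) (fun A hA => ?_) (fun _ => zero_le_one) A
  by_contra hc
  obtain ⟨-, c2, c3⟩ := close_im h0 (not_lt.1 hc)
  have nc : (n : ℂ) ≠ 0 := by exact_mod_cast hn.ne'
  have e2 : res n (zz α) A (sv x) = n * res n (zz α) A ((√(n : ℝ))⁻¹ • sv x) := by
    rw [res_smul, ← Complex.ofReal_pow, r2]
    push_cast
    field_simp
  have e3 := res_shift hz n0 A (sv x) (by
    rw [e2]
    intro h
    exact c2 (mul_left_cancel₀ nc (by simpa using h)))
  have e4 : -(res n (zz α) (A + fun p => eM n p x) (sv x)).im < n / (8 * α) := hA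
  rw [show (A + fun p => eM n p x) = A + fun p => (√(2 * n))⁻¹ * (sv x p.1 * sv x p.2) from rfl, e3,
    e2] at e4
  generalize res n (zz α) A ((√(n : ℝ))⁻¹ • sv x) = w at *
  have e5 : (n : ℂ) * w / (1 - n * w / ((n : ℝ) : ℂ)) = ((n : ℝ) : ℂ) * (w / (1 - w)) := by
    push_cast
    rw [mul_div_cancel_left₀ _ nc, mul_div_assoc]
  rw [e5, Complex.im_ofReal_mul, div_eq_mul_one_div (n : ℝ)] at e4
  nlinarith [mul_le_mul_of_nonneg_left c3 n0.le]

theorem Crit_closed (c : ℝ) : MeasurableSet {g : Pair n → ℝ | Lin c g} := by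
  refine IsClosed.measurableSet ?_
  simp only [Lin, Set.setOf_forall]
  refine isClosed_iInter fun a => isClosed_le (continuous_const.mul
    (continuous_finsetSum _ fun x _ => Continuous.mul ?_ continuous_const)) continuous_const
  have hc : ∀ y, Continuous fun g : Pair n → ℝ => exp (ham 1 g y) := fun y => by
    unfold ham
    fun_prop
  exact (hc x).div (continuous_finsetSum _ fun y _ => hc y) fun g =>
    (sum_pos (fun _ _ => exp_pos _) univ_nonempty).ne'

theorem Crit_prob : ∃ D : ℕ, ∀ (n : ℕ) (α p : ℝ), 0 < n → 0 < α → α ≤ 1 / 2 →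
    (∀ u : Fin n → ℝ, u ⬝ᵥ u = 1 →
      (gm (Fin n × Fin n)).real {A | α / 2 < ‖res n (zz α) A u - mm α‖} ≤ p) →
    (gm (Pair n)).real {g | Lin (25 * α ^ 2) g} ≤
      n * p + 1 / (2 * n + 1) + 2 * (2 * n + 1) ^ D * p := by
  obtain ⟨D, hD⟩ := lowZ
  refine ⟨D, fun n α p hn h0 h1 hp => ?_⟩
  have n1 : (1 : ℝ) ≤ n := by exact_mod_cast hn
  have b2 := hD _ _ (eM n) (n / 2) (2 * n + 1) (by linarith) (Crit_cv1 hn) (Crit_second hn)
  have c0 : (0 : ℝ) < Fintype.card (Conf n) := by exact_mod_cast Fintype.card_pos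
  set M := Fintype.card (Conf n) * exp ((n : ℝ) / 2 / 2) with hM
  have M0 : 0 < M := by positivity
  have K0 : (0 : ℝ) < (2 * n + 1) ^ D := by positivity
  have b1 : (gm (Fin n × Fin n)).real (⋃ i, {A | α / 2 <
      ‖res n (zz α) A (Pi.single i 1) - mm α‖}) ≤ n * p := by
    refine (measureReal_iUnion_fintype_le _).trans ((sum_le_sum fun i _ => hp _ (by simp)).trans_eq ?_)
    rw [sum_const, card_univ, Fintype.card_fin, nsmul_eq_mul]
  have iB : ∀ x : Conf n, Integrable ((Bad α x).indicator fun A => exp (Hf (eM n) A x))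
      (gm (Fin n × Fin n)) := fun x => (int_Hf (eM n) x).1.indicator
    (measurableSet_lt (Complex.measurable_im.comp (Crit_meas α _)).neg measurable_const)
  have b3 := mul_meas_ge_le_integral_of_nonneg (μ := gm (Fin n × Fin n))
    (f := fun A => ∑ x, (Bad α x).indicator (fun A => exp (Hf (eM n) A x)) A)
    (ae_of_all _ fun A => sum_nonneg fun x _ => Set.indicator_nonneg (fun _ _ => (exp_pos _).le) _)
    (integrable_finsetSum _ fun x _ => iB x) (M / (2 * n + 1) ^ D / 2)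
  rw [integral_finsetSum _ fun x _ => iB x] at b3
  have b4 := b3.trans (sum_le_sum fun x _ => Crit_plant hn h0 h1 hp x)
  rw [sum_const, card_univ, nsmul_eq_mul, ← mul_assoc, ← hM] at b4
  have b5 : (gm (Fin n × Fin n)).real {A | M / (2 * n + 1) ^ D / 2 ≤
      ∑ x, (Bad α x).indicator (fun A => exp (Hf (eM n) A x)) A} ≤ 2 * (2 * n + 1) ^ D * p := by
    refine le_of_mul_le_mul_left (b4.trans_eq ?_) (by positivity)
    field_simp
  rw [← (mp_sym n).measureReal_preimage (Crit_closed _).nullMeasurableSet]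
  refine le_trans (measureReal_mono fun A hA => ?_) ((measureReal_union_le _ _).trans
    (add_le_add ((measureReal_union_le _ _).trans (add_le_add b1 b2)) b5))
  by_contra hc
  simp only [Set.mem_union, Set.mem_iUnion, Set.mem_setOf_eq, not_or, not_exists, not_lt, not_le] at hc
  exact Crit_det hn h0 h1 hc.1.1 (by linarith [hc.1.2, hc.2]) hA

theorem Crit_num {N p : ℝ} (D : ℕ) (n1 : 1 ≤ N) (b2 : p ≤ 1 / N ^ (D + 2)) :
    N * (4 * p) + 1 / (2 * N + 1) + 2 * (2 * N + 1) ^ D * (4 * p) ≤ (5 + 8 * 3 ^ D) / N := by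
  have n0 : 0 < N := by linarith
  have nD : 1 ≤ N ^ D := one_le_pow₀ n1
  have d1 : (2 * N + 1) ^ D ≤ 3 ^ D * N ^ D := by
    rw [← mul_pow]
    exact pow_le_pow_left₀ (by positivity) (by linarith) D
  have d2 : N * (4 * p) ≤ 4 / N := by
    refine (mul_le_mul_of_nonneg_left (mul_le_mul_of_nonneg_left b2 (by norm_num)) n0.le).trans ?_
    rw [mul_one_div, ← mul_div_assoc, div_le_div_iff₀ (by positivity) n0, pow_add]
    linarith [mul_le_mul_of_nonneg_right nD (sq_nonneg N)]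
  have d3 : 1 / (2 * N + 1) ≤ 1 / N := one_div_le_one_div_of_le n0 (by linarith)
  have d4 : 2 * (2 * N + 1) ^ D * (4 * p) ≤ 8 * 3 ^ D / N := by
    refine (mul_le_mul_of_nonneg_left (mul_le_mul_of_nonneg_left b2 (by norm_num))
      (by positivity)).trans ?_
    rw [mul_one_div, ← mul_div_assoc, div_le_div_iff₀ (by positivity) n0, pow_add]
    have d5 : N ≤ N ^ 2 := by nlinarith
    linarith [mul_le_mul d1 d5 n0.le (by positivity)]
  have e : (5 + 8 * 3 ^ D : ℝ) / N = 4 / N + 1 / N + 8 * 3 ^ D / N := by ring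
  linarith

theorem Crit_par {N l a : ℝ} (a1 : 1 ≤ a) (n1 : 16 ≤ N) (l12 : 12 ≤ l) (h2 : l ^ 4 / N ≤ 1 / a ^ 12) :
    ∃ α : ℝ, 0 < α ∧ α ≤ 1 / 2 ∧ 12 ≤ α * √N ∧ α ^ 2 * √N ≤ 1 ∧ α ^ 3 * N = a ^ 3 * l ∧
      1 / (50 * a ^ 2) * (N / l) ^ (2 / 3 : ℝ) = 1 / (50 * α ^ 2) := by
  have n0 : 0 < N := by linarith
  have l0 : 0 < l := by linarith
  have a0 : 0 < a := by linarith
  obtain ⟨w, hw⟩ : ∃ w, w = (N / l) ^ (1 / 3 : ℝ) := ⟨_, rfl⟩
  have w0 : 0 < w := by rw [hw]; positivity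
  have w3 : w ^ 3 = N / l := by
    rw [hw, one_div]
    exact_mod_cast rpow_inv_natCast_pow (by positivity) (by norm_num)
  have w2 : (N / l) ^ (2 / 3 : ℝ) = w ^ 2 := by
    rw [hw, ← rpow_natCast, ← rpow_mul (by positivity)]
    norm_num
  obtain ⟨α, hα⟩ : ∃ α, α = a / w := ⟨_, rfl⟩
  have α0 : 0 < α := by rw [hα]; positivity
  have α3 : α ^ 3 * N = a ^ 3 * l := by
    rw [hα, div_pow, w3]
    field_simp
  have a3 : 1 ≤ a ^ 3 := one_le_pow₀ a1
  have r0 : 0 < √N := sqrt_pos.2 n0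
  have r2 : √N ^ 2 = N := sq_sqrt n0.le
  have c3 : α ^ 2 * √N ≤ 1 := by
    rw [← pow_le_one_iff_of_nonneg (by positivity) (by norm_num : 6 ≠ 0)]
    have e : (α ^ 2 * √N) ^ 6 = (α ^ 3 * N) ^ 4 / N := by
      rw [show (α ^ 2 * √N) ^ 6 = α ^ 12 * (√N ^ 2) ^ 3 by ring, r2]
      field_simp
    rw [e, α3, show (a ^ 3 * l) ^ 4 / N = a ^ 12 * (l ^ 4 / N) by ring]
    rwa [le_div_iff₀' (by positivity)] at h2
  have r4 : 4 ≤ √N := by nlinarith
  refine ⟨α, α0, by nlinarith, ?_, c3, α3, ?_⟩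
  · have e : α * √N * (α ^ 2 * √N) = a ^ 3 * l := by rw [← α3]; linear_combination α ^ 3 * r2
    have := mul_le_mul_of_nonneg_left c3 (by positivity : 0 ≤ α * √N)
    nlinarith
  · rw [w2, hα]
    field_simp

theorem Crit_fin (hn : 0 < n) {α : ℝ} (α0 : 0 < α) {g : Pair n → ℝ} (hc : ¬ Lin (25 * α ^ 2) g) :
    1 / (50 * α ^ 2) ≤ tmix 1 g ∧ (∀ t, 0 ≤ t → t ≤ 1 / (50 * α ^ 2) → ∃ x, 1 / 4 < tv 1 g t x) ∧
      0 < gap 1 g ∧ 1 / (50 * α ^ 2) ≤ 1 / gap 1 g := by
  have g0 := gap_pos hn 1 g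
  have g1 : gap 1 g < 25 * α ^ 2 := by
    by_contra hge
    refine hc fun b => le_trans (mul_le_mul_of_nonneg_right (not_lt.1 hge) ?_) (lin_real 1 g b)
    exact sum_nonneg fun x _ => mul_nonneg (div_nonneg (exp_pos _).le
      (sum_nonneg fun _ _ => (exp_pos _).le)) (sq_nonneg _)
  obtain ⟨m1, m2⟩ := tmix_ge hn 1 g
  have l2 := log_two_gt_d9
  refine ⟨le_trans ?_ m2, fun t t0 ht => m1 t t0 ?_, g0,
    one_div_le_one_div_of_le g0 (by nlinarith [sq_nonneg α])⟩
  · rw [div_le_div_iff₀ (by positivity) g0]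
    nlinarith [sq_nonneg α]
  · rw [le_div_iff₀ (by positivity)] at ht
    nlinarith [mul_le_mul_of_nonneg_left g1.le t0]

theorem crit : ∃ c : ℝ, 0 < c ∧ Tendsto (fun n : ℕ => disorder n {g : Pair n → ℝ |
    ¬ (c * (n / log n) ^ (2 / 3 : ℝ) ≤ tmix 1 g ∧
      (∀ t, 0 ≤ t → t ≤ c * (n / log n) ^ (2 / 3 : ℝ) → ∃ x, 1 / 4 < tv 1 g t x) ∧
      0 < gap 1 g ∧ c * (n / log n) ^ (2 / 3 : ℝ) ≤ 1 / gap 1 g)}) atTop (𝓝 0) := by
  obtain ⟨κ, Q, hκ, hT⟩ := tail
  obtain ⟨D, hD⟩ := Crit_prob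
  obtain ⟨a, a1, a2⟩ : ∃ a : ℝ, 1 ≤ a ∧ (D + 2 : ℝ) ≤ κ * a ^ 3 := by
    refine ⟨max 1 ((D + 2) / κ), le_max_left _ _, ?_⟩
    have h1 := le_max_left 1 (((D : ℝ) + 2) / κ)
    have h2 := (div_le_iff₀' hκ).1 (le_max_right 1 (((D : ℝ) + 2) / κ))
    exact h2.trans (mul_le_mul_of_nonneg_left (le_self_pow₀ h1 (by norm_num)) hκ.le)
  have a0 : 0 < a := by linarith
  refine ⟨1 / (50 * a ^ 2), by positivity, ?_⟩
  have t1 : Tendsto (fun n : ℕ => log (n : ℝ)) atTop atTop :=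
    tendsto_log_atTop.comp tendsto_natCast_atTop_atTop
  have t2 := (((isLittleO_pow_log_id_atTop (n := 4)).tendsto_div_nhds_zero).comp
    tendsto_natCast_atTop_atTop).eventually_le_const (by positivity : (0 : ℝ) < 1 / a ^ 12)
  have t3 : Tendsto (fun n : ℕ => ENNReal.ofReal ((5 + 8 * 3 ^ D) / (n : ℝ))) atTop (𝓝 0) := by
    simpa using ENNReal.tendsto_ofReal (tendsto_const_div_atTop_nhds_zero_nat (5 + 8 * 3 ^ D : ℝ))
  refine tendsto_of_tendsto_of_tendsto_of_le_of_le' tendsto_const_nhds t3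
    (Eventually.of_forall fun _ => zero_le) ?_
  filter_upwards [t2, t1.eventually_ge_atTop (max 12 Q), eventually_ge_atTop 16] with n h2 h1 hn
  have n1 : (16 : ℝ) ≤ n := by exact_mod_cast hn
  have n0 : (0 : ℝ) < n := by linarith
  have l12 := (le_max_left _ _).trans h1
  have lQ := (le_max_right _ _).trans h1
  obtain ⟨α, α0, c1, c2, c3, α3, e⟩ := Crit_par a1 n1 l12 h2
  have a3 : 1 ≤ a ^ 3 := one_le_pow₀ a1
  have b1 := hD n α _ (by omega) α0 c1 (hT n α α0 c1 c2 c3 (by rw [α3]; nlinarith))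
  have b2 : exp (-(κ * (α ^ 3 * n))) ≤ 1 / (n : ℝ) ^ (D + 2) := by
    rw [α3, one_div, ← exp_log (pow_pos n0 (D + 2)), ← exp_neg, log_pow]
    push_cast
    exact exp_le_exp.2 (by nlinarith)
  have b3 := b1.trans (Crit_num D (by linarith) b2)
  refine le_trans (measure_mono fun g hg => ?_) ((ofReal_measureReal (μ := gm (Pair n))
    (s := {g | Lin (25 * α ^ 2) g})).ge.trans (ENNReal.ofReal_le_ofReal b3))
  by_contra hc
  refine hg ?_
  rw [e]
  exact Crit_fin (by omega) α0 hc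

end

end Vale.Agent.P150C
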