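import Vale.Agent.P150S.Final

/-! Slow mixing from typical starting points.

`typ_start`: take `f`, `B`, `f1` to `f4`, `hBZ` as in the proof of `bottleneck` (copy), and `Bot_kern` at time `T`.
If `tv t y ≤ 1 / 4` with `0 ≤ t ≤ T`, then `|kern T *ᵥ f y| ≤ 1 / 2`: `kern T = kern t * kern (T - t)`
(`NormedSpace.exp_add_of_commute`, as matrices; see `hasSum_exp` for the norm instances), `h = kern (T - t) *ᵥ f` has
`|h| ≤ 1` (`Bot_series`, `Bot_iter`) and `Ex W h = 0` (`Bot_series`, `Ex_Pw`), then argue as in `a4`. Hence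
`Ex W (f * kern T *ᵥ f) ≤ (1 - M / 2) ∑ W` with `M` the left side.
`slow_typ`: copy the proof of `slow` (`prob_le`, `δ = exp (-2 y)`, `T = exp y`, `exp s - 1 ≤ 2 s` for `s ≤ 1`,
`10 n exp (-y) ≤ exp (-y / 2)` eventually, `n = y ^ 70000`). -/

namespace Vale.Agent.P150C

open Finset Real Filter Topology Vale.Agent.P150 Vale.Agent.P150S

theorem Typ_exp (v : ℝ) : HasSum (fun k : ℕ => (k.factorial : ℝ)⁻¹ * v ^ k) (exp v) := by
  rw [Real.exp_eq_exp_ℝ]
  exact NormedSpace.exp_series_hasSum_exp' (𝕂 := ℝ) v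

theorem Typ_bd {n : ℕ} (hn : 0 < n) (β : ℝ) (g : Pair n → ℝ) {f : Conf n → ℝ} (hf : ∀ y, |f y| ≤ 1)
    {t : ℝ} (ht : 0 ≤ t) (y : Conf n) : |(kern β g t).mulVec f y| ≤ 1 := by
  have : Nonempty (Fin n) := ⟨⟨0, hn⟩⟩
  have hW := isw_pos (Jm β g) fun _ => 0
  have a1 := Bot_series (heat_mulVec (β := β) (g := g)) t f y
  have hu : 0 ≤ t * Fintype.card (Fin n) := mul_nonneg ht (Nat.cast_nonneg _)
  generalize t * Fintype.card (Fin n) = u at a1 hu
  have b : ∀ k : ℕ, |(k.factorial : ℝ)⁻¹ * (u ^ k * (Pw (isw (Jm β g) fun _ => 0))^[k] f y)| ≤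
      (k.factorial : ℝ)⁻¹ * u ^ k := fun k => by
    rw [← mul_assoc, abs_mul, abs_of_nonneg (by positivity)]
    exact mul_le_of_le_one_right (by positivity) (Bot_iter hW hf k y)
  have a2 := hasSum_le (fun k => (abs_le.1 (b k)).2) a1 (Typ_exp u)
  have a3 := hasSum_le (fun k => (abs_le.1 (b k)).1) (Typ_exp u).neg a1
  have a4 := exp_pos u
  unfold kern gen
  rw [abs_le]
  constructor <;> nlinarith

theorem Typ_mean {n : ℕ} (hn : 0 < n) (β : ℝ) (g : Pair n → ℝ) {f : Conf n → ℝ}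
    (hf : Ex (isw (Jm β g) fun _ => 0) f = 0) (t : ℝ) :
    Ex (isw (Jm β g) fun _ => 0) ((kern β g t).mulVec f) = 0 := by
  have : Nonempty (Fin n) := ⟨⟨0, hn⟩⟩
  have hW := isw_pos (Jm β g) fun _ => 0
  set W := isw (Jm β g) fun _ => 0 with hWd
  have a1 := hasSum_sum fun y (_ : y ∈ univ) =>
    (Bot_series (heat_mulVec (β := β) (g := g)) t f y).mul_left (W y)
  have b : ∀ k : ℕ, Ex W ((Pw W)^[k] f) = 0 := fun k => by
    induction k with
    | zero => exact hf
    | succ k ih => rw [Function.iterate_succ_apply', Ex_Pw hW, ih]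
  generalize t * Fintype.card (Fin n) = u at a1
  have c : ∀ k : ℕ, ∑ y, W y * ((k.factorial : ℝ)⁻¹ * (u ^ k * (Pw W)^[k] f y)) = 0 := fun k => by
    have e : ∑ y, W y * ((k.factorial : ℝ)⁻¹ * (u ^ k * (Pw W)^[k] f y)) =
        (k.factorial : ℝ)⁻¹ * u ^ k * Ex W ((Pw W)^[k] f) := by
      rw [Ex, mul_sum]
      exact sum_congr rfl fun y _ => by ring
    rw [e, b, mul_zero]
  rw [← hWd] at a1
  simp only [c] at a1
  have a2 := hasSum_zero.unique a1
  have e : ∑ y, W y * (exp u * (kern β g t).mulVec f y) = exp u * Ex W ((kern β g t).mulVec f) := by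
    rw [Ex, mul_sum]
    exact sum_congr rfl fun y _ => by ring
  have a3 : exp u * Ex W ((kern β g t).mulVec f) = 0 := by
    rw [← e]
    exact a2.symm
  exact (mul_eq_zero.1 a3).resolve_left (exp_pos u).ne'

theorem Typ_add {n : ℕ} (β : ℝ) (g : Pair n → ℝ) (s t : ℝ) :
    kern β g (s + t) = kern β g s * kern β g t := by
  unfold kern
  rw [add_smul, Matrix.exp_add_of_commute _ _ (((Commute.refl _).smul_left _).smul_right _)]

theorem Typ_half {n : ℕ} (β : ℝ) (g : Pair n → ℝ) {f : Conf n → ℝ} (f1 : ∀ y, |f y| ≤ 1)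
    (hf : Ex (isw (Jm β g) fun _ => 0) f = 0) {t : ℝ} {y : Conf n} (h : tv β g t y ≤ 1 / 4) :
    |(kern β g t).mulVec f y| ≤ 1 / 2 := by
  have e : (kern β g t).mulVec f y = ∑ z, (kern β g t y z - gibbs β g z) * f z := by
    have e1 : ∑ z, gibbs β g z * f z = 0 := by
      have e2 : ∑ z, gibbs β g z * f z =
          Ex (isw (Jm β g) fun _ => 0) f / ∑ y, isw (Jm β g) (fun _ => 0) y := by
        rw [Ex, sum_div]
        exact sum_congr rfl fun z _ => by rw [gibbs_eq]; ring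
      rw [e2, hf, zero_div]
    simp only [sub_mul, sum_sub_distrib, e1, sub_zero]
    rfl
  rw [e]
  refine (abs_sum_le_sum_abs _ _).trans ((sum_le_sum fun z _ => (abs_mul _ _).trans_le
    (mul_le_of_le_one_right (abs_nonneg _) (f1 z))).trans ?_)
  unfold tv at h
  linarith

theorem typ_start {n : ℕ} (hn : 0 < n) (β : ℝ) (g : Pair n → ℝ) (x : Conf n) {δ T : ℝ} (h0 : 0 < δ)
    (hT : 0 ≤ T) (h : ∑ y, (if |∑ i, sp (x i) * sp (y i)| ≤ 2 then gibbs β g y else 0) ≤ δ) :
    ∑ y, Set.indicator {y | ∃ t, 0 ≤ t ∧ t ≤ T ∧ tv β g t y ≤ 1 / 4} (gibbs β g) y ≤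
      2 * (δ + exp (2 * δ * (T * n)) - 1) := by
  have : Nonempty (Fin n) := ⟨⟨0, hn⟩⟩
  have hW := isw_pos (Jm β g) fun _ => 0
  have hZ := sumW_pos hW
  set W := isw (Jm β g) fun _ => 0 with hWd
  set d : Conf n → ℝ := fun y => ∑ i, sp (x i) * sp (y i) with hd
  set f : Conf n → ℝ := fun y => Real.sign (d y) with hf
  set B : Conf n → ℝ := fun y => if |d y| ≤ 2 then 1 else 0 with hB
  have f1 : ∀ y, |f y| ≤ 1 := fun y => by
    rcases Real.sign_apply_eq (d y) with e | e | e <;> simp [hf, e]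
  have hBZ : Ex W B ≤ δ * ∑ y, W y := by
    rw [← div_le_iff₀ hZ, Ex, sum_div]
    refine le_of_eq_of_le (sum_congr rfl fun y _ => ?_) h
    simp only [hB, hd, gibbs_eq]
    split_ifs <;> simp [hWd]
  have f2 : (1 - δ) * ∑ y, W y ≤ Ex W fun y => f y ^ 2 := by
    have a1 : Ex W (fun y => 1 - B y) ≤ Ex W fun y => f y ^ 2 := by
      refine Ex_mono hW fun y => ?_
      simp only [hB, hf]
      split_ifs with hy
      · rw [sub_self]
        exact sq_nonneg _
      · have : d y ≠ 0 := fun e => hy (by rw [e]; norm_num)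
        rcases Real.sign_apply_eq_of_ne_zero _ this with e | e <;> simp [e]
    rw [Ex_sub, Ex_const] at a1
    have e : (Ex W fun x => B x) = Ex W B := rfl
    rw [e] at a1
    linarith
  have f3 : Ex W f = 0 := by
    have hs : ∀ b, sp (!b) = -sp b := fun b => by cases b <;> simp [sp]
    have hi : Function.Involutive fun (y : Conf n) j => !y j := fun y => by simp
    have a1 := Equiv.sum_comp hi.toPerm fun y => W y * f y
    have a2 : ∀ y : Conf n, W (fun j => !y j) = W y := fun y => by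
      simp only [hWd, isw, en, ← sp_eq, hs, mul_neg, neg_mul, neg_neg, zero_mul, neg_zero]
    have a3 : ∀ y : Conf n, f (fun j => !y j) = -f y := fun y => by
      simp only [hf, hd, hs, mul_neg, sum_neg_distrib, Real.sign_neg]
    simp only [Function.Involutive.coe_toPerm, a2, a3, mul_neg, sum_neg_distrib] at a1
    rw [Ex]
    linarith
  have f4 : ∀ i y, |Dw W i f y| ≤ 2 * B y := fun i y => by
    simp only [hB]
    split_ifs with hy
    · rw [Dw]
      linarith [abs_sub (f y) (Qw W i f y), f1 y, Bot_Qw hW f1 i y]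
    · have a1 : ∀ b, f (Function.update y i b) = f y := fun b => by
        have a2 := abs_le.1 (Bot_update x y i b)
        simp only [hf, hd] at hy ⊢
        rcases lt_abs.1 (not_le.1 hy) with e | e
        · rw [Real.sign_of_pos (by linarith [a2.1]), Real.sign_of_pos (by linarith)]
        · rw [Real.sign_of_neg (by linarith [a2.2]), Real.sign_of_neg (by linarith)]
      rw [Dw, Qw, a1, a1, ← add_mul, mul_div_cancel_left₀ _ (add_pos (hW _) (hW _)).ne']
      simp
  have a1 := Bot_kern hW f1 f4 h0.le hBZ f2 heat_mulVec hT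
  rw [Fintype.card_fin] at a1
  set G : Set (Conf n) := {y | ∃ t, 0 ≤ t ∧ t ≤ T ∧ tv β g t y ≤ 1 / 4} with hG
  have a2 : (Ex W fun y => f y * (kern β g T).mulVec f y) ≤
      Ex W fun y => 1 - 1 / 2 * G.indicator 1 y := by
    refine Ex_mono hW fun y => (le_abs_self _).trans ((abs_mul _ _).trans_le
      ((mul_le_of_le_one_left (abs_nonneg _) (f1 y)).trans ?_))
    by_cases hy : y ∈ G
    · obtain ⟨t, t0, t1, t2⟩ := hy
      rw [Set.indicator_of_mem (show y ∈ G from ⟨t, t0, t1, t2⟩), show T = t + (T - t) by ring, Typ_add,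
        ← Matrix.mulVec_mulVec]
      refine (Typ_half β g (Typ_bd hn β g f1 (by linarith)) (Typ_mean hn β g f3 _) t2).trans ?_
      norm_num
    · rw [Set.indicator_of_notMem hy, mul_zero, sub_zero]
      exact Typ_bd hn β g f1 hT y
  rw [Ex_sub, Ex_const, Ex_mul] at a2
  have a3 : ∑ y, G.indicator (gibbs β g) y = Ex W (fun y => G.indicator 1 y) / ∑ y, W y := by
    rw [Ex, sum_div]
    refine sum_congr rfl fun y _ => ?_
    by_cases hy : y ∈ G
    · rw [Set.indicator_of_mem hy, Set.indicator_of_mem hy, gibbs_eq, Pi.one_apply, mul_one]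
    · rw [Set.indicator_of_notMem hy, Set.indicator_of_notMem hy, mul_zero, zero_div]
  rw [a3, div_le_iff₀ hZ]
  have a4 := a1.trans a2
  linarith

theorem slow_typ (β : ℝ) (hβ : 1 < β) : Tendsto (fun n : ℕ => disorder n {g : Pair n → ℝ |
    ¬ (∑ y, Set.indicator {y | ∃ t, 0 ≤ t ∧ t ≤ exp ((n : ℝ) ^ (1 / 70000 : ℝ)) ∧ tv β g t y ≤ 1 / 4}
      (gibbs β g) y ≤ exp (-(n : ℝ) ^ (1 / 70000 : ℝ) / 2))}) atTop (𝓝 0) := by
  have e1 : Tendsto (fun n : ℕ => (n : ℝ) ^ (1 / 70000 : ℝ) / 2) atTop atTop :=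
    ((tendsto_rpow_atTop (by norm_num)).comp tendsto_natCast_atTop_atTop).atTop_div_const two_pos
  obtain ⟨c, hc⟩ : ∃ c : ℝ, c = 2 ^ 70000 := ⟨_, rfl⟩
  have c0 : 0 < c := by rw [hc]; exact pow_pos two_pos _
  have e2 := ((tendsto_pow_mul_exp_neg_atTop_nhds_zero 70000).comp e1).eventually_le_const
    (by positivity : (0 : ℝ) < 1 / (10 * c))
  have e3 : Tendsto (fun n : ℕ => (gm (Pair n)).real {g | ∀ x,
      exp (-(2 * (n : ℝ) ^ (1 / 70000 : ℝ))) * Zw (eS n β) 1 g ≤ Zw (eS n β) (ind (Orth n) x) g})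
      atTop (𝓝 0) := by
    refine tendsto_order.2 ⟨fun a ha => Eventually.of_forall fun n =>
      ha.trans_le MeasureTheory.measureReal_nonneg, fun a ha => ?_⟩
    filter_upwards [prob_le hβ (η := min 1 (a / 4)) (by positivity) (min_le_left _ _)] with n hn
    linarith [min_le_right 1 (a / 4)]
  have e4 := ENNReal.tendsto_ofReal e3
  rw [ENNReal.ofReal_zero] at e4
  refine tendsto_of_tendsto_of_tendsto_of_le_of_le' tendsto_const_nhds e4
    (Eventually.of_forall fun _ => zero_le) ?_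
  filter_upwards [e2, eventually_gt_atTop 0] with n a1 hn
  have n1 : (1 : ℝ) ≤ n := by exact_mod_cast hn
  rw [MeasureTheory.ofReal_measureReal]
  refine MeasureTheory.measure_mono fun g hg x => le_of_not_gt fun hx => hg ?_
  have a2 : ((n : ℝ) ^ (1 / 70000 : ℝ)) ^ 70000 = n := by
    rw [one_div]
    exact_mod_cast rpow_inv_natCast_pow (Nat.cast_nonneg n) (by norm_num)
  simp only [Function.comp_apply, div_pow, a2, ← hc] at a1
  have y0 : 0 ≤ (n : ℝ) ^ (1 / 70000 : ℝ) := by positivity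
  generalize (n : ℝ) ^ (1 / 70000 : ℝ) = y at *
  have a3 : 10 * n * exp (-(y / 2)) ≤ 1 := by
    rw [div_mul_eq_mul_div, div_le_div_iff₀ c0 (by positivity)] at a1
    refine le_of_mul_le_mul_right ?_ c0
    linarith
  have a4 := exp_pos (-(y / 2))
  have a5 : exp (-y) = exp (-(y / 2)) * exp (-(y / 2)) := by rw [← exp_add]; congr 1; ring
  have a6 : 2 * exp (-(2 * y)) * (exp y * n) = 2 * n * exp (-y) := by
    rw [show -y = -(2 * y) + y by ring, exp_add]
    ring
  have a7 : exp (-(2 * y)) ≤ exp (-y) := exp_le_exp.2 (by linarith)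
  have a8 : exp (-(y / 2)) ≤ 1 := exp_le_one_iff.2 (by linarith)
  have a9 : 10 * n * exp (-y) ≤ exp (-(y / 2)) := by rw [a5]; nlinarith
  have b0 := exp_pos (-y)
  have b1 : exp (2 * n * exp (-y)) - 1 ≤ 2 * (2 * n * exp (-y)) := by
    have := Real.abs_exp_sub_one_le (x := 2 * n * exp (-y))
      (by rw [abs_of_pos (by positivity)]; linarith)
    rw [abs_of_pos (by positivity : 0 < 2 * n * exp (-y))] at this
    exact (le_abs_self _).trans this
  refine (typ_start hn β g x (exp_pos (-(2 * y))) (exp_pos y).le ?_).trans ?_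
  · have z := Z_pos (eS n β) g
    refine le_trans (le_of_eq ?_) ((div_le_iff₀ z).2 hx.le)
    simp only [Zw, sum_div, Hf_eq (by linarith : 0 ≤ β), Pi.one_apply, one_mul, ind, gibbs]
    refine sum_congr rfl fun y _ => ?_
    split_ifs <;> simp
  · rw [a6, neg_div]
    nlinarith

end Vale.Agent.P150C
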